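import Vale.Agent.P179.MathlibUsed

/-! Blocks, simple modules in a block, weights, Brauer induction: the notions of P179. -/

namespace Vale.Agent.P179

open Subgroup

universe u v

/-- A p-block of G over k: a primitive idempotent of the centre of the group algebra kG. -/
def IsBlock (k : Type v) [Field k] (G : Type u) [Group G] (B : MonoidAlgebra k G) : Prop :=
  B ∈ Set.center (MonoidAlgebra k G) ∧ B ≠ 0 ∧ B * B = B ∧
    ∀ e ∈ Set.center (MonoidAlgebra k G), ∀ f ∈ Set.center (MonoidAlgebra k G),
      e * e = e → f * f = f → e * f = 0 → e + f = B → e = 0 ∨ f = 0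

/-- The simple modules of the ring A on which B acts as the identity, up to isomorphism: every
simple A-module is isomorphic to A / m for a maximal left ideal m. -/
def SimpleIn {A : Type*} [Ring A] (B : A) : Type _ :=
  {m : Ideal A // m.IsMaximal ∧ ∀ x : A ⧸ m, B • x = x}

/-- Isomorphism of the corresponding simple modules. -/
def simpleSetoid {A : Type*} [Ring A] (B : A) : Setoid (SimpleIn B) where
  r m m' := Nonempty ((A ⧸ m.1) ≃ₗ[A] (A ⧸ m'.1))
  iseqv :=
    { refl := fun m => ⟨LinearEquiv.refl A (A ⧸ m.1)⟩
      symm := fun ⟨e⟩ => ⟨e.symm⟩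
      trans := fun ⟨e⟩ ⟨f⟩ => ⟨e.trans f⟩ }

/-- l(B): the number of isomorphism classes of simple modules in B. -/
noncomputable def numSimple {A : Type*} [Ring A] (B : A) : ℕ :=
  Nat.card (Quotient (simpleSetoid B))

/-- The function f is the character of an irreducible complex representation of H. -/
def IsIrrChar (H : Type u) [Group H] (f : H → ℂ) : Prop :=
  ∃ (n : ℕ) (σ : Representation ℂ H (Fin n → ℂ)), σ.IsIrreducible ∧ σ.character = f

/-- Reduction of algebraic integers with respect to a ring homomorphism rho from the ring of all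
algebraic integers to k (junk value 0 at complex numbers that are not algebraic integers). -/
noncomputable def red {k : Type v} [Field k] (rho : integralClosure ℤ ℂ →+* k) (c : ℂ) : k :=
  open Classical in if h : c ∈ integralClosure ℤ ℂ then rho ⟨c, h⟩ else 0

/-- s_H : kG → kH, restriction of the coefficients to the subgroup H. -/
noncomputable def resCoeff {k : Type v} [Field k] {G : Type u} [Group G] (H : Subgroup G)
    (z : MonoidAlgebra k G) : MonoidAlgebra k H :=
  MonoidAlgebra.ofCoeff (z.coeff.comapDomain (fun h : H => (h : G)) Subtype.val_injective.injOn)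

/-- The central character Z(kH) → k of the block of H containing the irreducible complex character
f: the class sum of C goes to the reduction of |C| f(x) / f(1), x in C. -/
noncomputable def blockChar {k : Type v} [Field k] (rho : integralClosure ℤ ℂ →+* k)
    {H : Type u} [Group H] (f : H → ℂ) (z : MonoidAlgebra k H) : k :=
  ∑ᶠ C : ConjClasses H, z.coeff C.out * red rho (Nat.card C.carrier * f C.out / f 1)

/-- A p-weight (Q, phi) of G. -/
structure Weight (p : ℕ) (G : Type u) [Group G] where
  /-- the p-subgroup -/
  Q : Subgroup G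
  /-- the function on N_G(Q)/Q -/
  phi : (normalizer (Q : Set G)) ⧸ (Q.subgroupOf (normalizer (Q : Set G))) → ℂ
  isPGroup : IsPGroup p Q
  irr : IsIrrChar _ phi
  defectZero : ∃ d : ℕ, phi 1 = d ∧ d.factorization p =
    (Nat.card ((normalizer (Q : Set G)) ⧸ (Q.subgroupOf (normalizer (Q : Set G))))).factorization p

/-- Inflation of phi to N_G(Q). -/
def Weight.infl {p : ℕ} {G : Type u} [Group G] (w : Weight p G) :
    normalizer (w.Q : Set G) → ℂ := fun x => w.phi (QuotientGroup.mk x)

/-- The weight w = (Q, phi) belongs to B: for the block b of N_G(Q) containing the inflation of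
phi, lambda_b ∘ s_N = lambda_B, the scalar by which the centre acts on the simple modules in B. -/
def Weight.Belongs {k : Type v} [Field k] (rho : integralClosure ℤ ℂ →+* k) {p : ℕ} {G : Type u}
    [Group G] (B : MonoidAlgebra k G) (w : Weight p G) : Prop :=
  ∀ m : SimpleIn B, ∀ z ∈ Set.center (MonoidAlgebra k G), ∀ x : MonoidAlgebra k G ⧸ m.1,
    z • x = algebraMap k (MonoidAlgebra k G) (blockChar rho w.infl (resCoeff _ z)) • x

/-- G-conjugacy of weights. -/
def weightSetoid (p : ℕ) (G : Type u) [Group G] : Setoid (Weight p G) where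
  r w w' := ∃ g : G, (∀ x, x ∈ w'.Q ↔ g⁻¹ * x * g ∈ w.Q) ∧
    ∀ (x : normalizer (w.Q : Set G)) (y : normalizer (w'.Q : Set G)),
      (y : G) = g * x * g⁻¹ → w'.infl y = w.infl x
  iseqv :=
    { refl := fun w => ⟨1, by simp, fun x y h => by
        congr 1
        exact Subtype.ext (by simpa using h)⟩
      symm := by
        rintro w w' ⟨g, hQ, hf⟩
        refine ⟨g⁻¹, fun x => ?_, fun x y h => (hf y x ?_).symm⟩
        · rw [hQ]
          simp [mul_assoc]
        · rw [h]
          simp [mul_assoc]
      trans := by
        rintro w w' w'' ⟨g, hQ, hf⟩ ⟨g', hQ', hf'⟩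
        refine ⟨g' * g, fun x => ?_, fun x y h => ?_⟩
        · rw [hQ', hQ]
          simp [mul_assoc]
        · have hz : g * x * g⁻¹ ∈ normalizer (w'.Q : Set G) := by
            rw [mem_normalizer_iff]
            intro t
            have hx := mem_normalizer_iff.1 x.2
            rw [hQ, hQ, hx]
            simp [mul_assoc]
          rw [hf' ⟨_, hz⟩ y (by rw [h]; simp [mul_assoc]), hf x ⟨_, hz⟩ rfl] }

/-- |W_p(B)|: the number of G-classes of p-weights belonging to B. -/
noncomputable def numWeights {k : Type v} [Field k] (p : ℕ) (rho : integralClosure ℤ ℂ →+* k)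
    {G : Type u} [Group G] (B : MonoidAlgebra k G) : ℕ :=
  Nat.card (Quotient ((weightSetoid p G).comap
    (Subtype.val : {w : Weight p G // w.Belongs rho B} → Weight p G)))

/-- The block B is principal: B acts as the identity on the trivial module, i.e. its coefficients
add up to one. -/
def IsPrincipal {k : Type v} [Field k] {G : Type u} [Group G] (B : MonoidAlgebra k G) : Prop :=
  B.coeff.sum (fun _ a => a) = 1

/-- The finite group G is p-nilpotent: it has a normal p-complement. -/
def PNilpotent (p : ℕ) (G : Type u) [Group G] : Prop :=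
  ∃ L : Subgroup G, L.Normal ∧ ¬ p ∣ Nat.card L ∧ ∃ n : ℕ, L.index = p ^ n

end Vale.Agent.P179
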