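import Mathlib.Algebra.AffineMonoid.Basic
import Mathlib.Algebra.Group.ConjFinite
import Mathlib.Algebra.Order.Quantale
import Mathlib.Analysis.CStarAlgebra.Classes
import Mathlib.Analysis.Complex.Polynomial.Basic
import Mathlib.GroupTheory.FiniteAbelian.Basic
import Mathlib.GroupTheory.Focal
import Mathlib.GroupTheory.Nilpotent
import Mathlib.LinearAlgebra.Dimension.OrzechProperty
import Mathlib.LinearAlgebra.Eigenspace.Charpoly
import Mathlib.LinearAlgebra.Eigenspace.Triangularizable
import Mathlib.Order.CompletePartialOrder
import Mathlib.RepresentationTheory.Character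
import Mathlib.RingTheory.Etale.Weakly
import Mathlib.RingTheory.Finiteness.ModuleFinitePresentation
import Mathlib.RingTheory.Flat.TorsionFree
import Mathlib.RingTheory.Henselian
import Mathlib.RingTheory.PicardGroup
import Mathlib.RingTheory.RegularLocalRing.Defs
import Mathlib.RingTheory.SimpleModule.Rank
import Mathlib.RingTheory.SimpleRing.Principal
import Mathlib.RingTheory.TotallySplit
import Mathlib.RingTheory.UniqueFactorizationDomain.Finsupp
import Mathlib.Tactic
import Mathlib.Topology.Algebra.ProperAction.Basic

/-! The part of Mathlib that the development of this folder uses. -/
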